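import Vale.Agent.P097.H490.D3.S2
import Vale.Agent.P097.H896.D3.Lab
import Vale.Agent.P097.H104.S3
import Vale.Agent.P097.H779.Disc.S4c
import Vale.Agent.P097.H541.Alg

/-!
P097, disc case: `[D3]`, one-sided integrable germs whose label has finitely many poles are
conics.
-/

set_option linter.all false

namespace Vale.Agent.P097.H490.D3

theorem d3 : Vale.Agent.P097.Disc.D3 :=
  Vale.Agent.P097.D3.d3_of' Vale.Agent.P097.H896.D3.LAB_proof s2sp Vale.Agent.P097.H104.s3
    Vale.Agent.P097.H779.Disc.s4 Vale.Agent.P097.H541.alg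

end Vale.Agent.P097.H490.D3
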