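import Vale.Agent.P097.H490.D3.Main

/-!
P097, disc case, block D3 (S2): the slope of the foliation near a resonance is `X₂ / X₁` with
`X₁`, `X₂` regular, `X₁ = m c₁ δ + ...`.
-/

set_option linter.all false

namespace Vale.Agent.P097.H490.D3

open MvPowerSeries
open Vale.Agent.P097.Disc Vale.Agent.P097.D3

/-- `T^k (c + δ)` -/
lemma T_pow_pp {av : Fin 2 → RR} (hs : HasSubst av) (c : ℂ) (k : ℕ) (f : Polynomial ℂ) :
    ((substAlgHom hs : RR →ₐ[ℂ] RR) ^ k) (pp c f) =
      Polynomial.aeval (C c + ((substAlgHom hs : RR →ₐ[ℂ] RR) ^ k) (X 1) : RR) f := by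
  unfold pp
  rw [← Polynomial.aeval_algHom_apply, map_add]
  congr 3
  exact ((substAlgHom hs : RR →ₐ[ℂ] RR) ^ k).commutes c

lemma not_dvd_T_pp {av : Fin 2 → RR} (hs : HasSubst av) (hN : (X 0 : RR) ∣ av 0)
    (hd : (X 0 : RR) ∣ av 1 - X 1) (c : ℂ) (k : ℕ) {f : Polynomial ℂ} (hf : f ≠ 0) :
    ¬ (X 0 : RR) ∣ ((substAlgHom hs : RR →ₐ[ℂ] RR) ^ k) (pp c f) := by
  intro h
  refine not_dvd_pp c hf ?_
  have h1 := T_pow_delta hs hN hd k
  have h2 := aeval_sub_dvd (C c + ((substAlgHom hs : RR →ₐ[ℂ] RR) ^ k) (X 1) : RR)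
    (C c + X 1 : RR) f
  rw [← T_pow_pp, add_sub_add_left_eq_sub] at h2
  have h3 := h1.trans h2
  have h4 := dvd_sub h h3
  rw [sub_sub_cancel] at h4
  exact h4

/-- the symmetry for the iterates -/
lemma label_T_pow {av : Fin 2 → RR} (hs : HasSubst av) (hN : (X 0 : RR) ∣ av 0)
    (hd : (X 0 : RR) ∣ av 1 - X 1) {c : ℂ} {n : ℕ} {U : RR} {q : Polynomial ℂ} (hq : q ≠ 0)
    (h : (X 0 : RR) ^ n ∣ (substAlgHom hs : RR →ₐ[ℂ] RR) U * pp c q -
      U * (substAlgHom hs : RR →ₐ[ℂ] RR) (pp c q)) (k : ℕ) :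
    (X 0 : RR) ^ n ∣ ((substAlgHom hs : RR →ₐ[ℂ] RR) ^ k) U * pp c q -
      U * ((substAlgHom hs : RR →ₐ[ℂ] RR) ^ k) (pp c q) := by
  induction k with
  | zero => simp
  | succ k ih =>
    have h1 := dvd_T_pow hs hN n ih
    rw [map_sub, map_mul, map_mul] at h1
    rw [pow_succ', AlgHom.mul_apply, AlgHom.mul_apply]
    have hnd : ¬ (X 0 : RR) ∣ (substAlgHom hs : RR →ₐ[ℂ] RR) (pp c q) := by
      have := not_dvd_T_pp hs hN hd c 1 hq
      rwa [pow_one] at this
    refine cancel hnd ?_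
    have h2 := dvd_add (Dvd.dvd.mul_left h1 (pp c q)) (Dvd.dvd.mul_left h
      ((substAlgHom hs : RR →ₐ[ℂ] RR) (((substAlgHom hs : RR →ₐ[ℂ] RR) ^ k) (pp c q))))
    convert h2 using 1
    ring

/-- coefficients of `X 0 * f` -/
lemma coeff_X0_mul (f : RR) (e : Fin 2 →₀ ℕ) :
    coeff (Finsupp.single 0 1 + e) (X 0 * f) = coeff e f := by
  have := MvPowerSeries.coeff_add_monomial_mul (m := Finsupp.single (0 : Fin 2) 1) (n := e)
    (φ := f) (a := (1 : ℂ))
  rw [one_mul] at this
  exact this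

lemma wt_single0 : wt (Finsupp.single 0 1) = 2 := by simp [wt]
lemma wt_single1 (j : ℕ) : wt (Finsupp.single 1 j) = j := by simp [wt]

/-- the derivation of a product `pp f * X 0 ^ n` -/
lemma D_term (D : Derivation ℂ RR RR) (c : ℂ) (f : Polynomial ℂ) (n : ℕ) {X1 : RR}
    (h : D (X 0) = X 0 * X1) :
    D (pp c f * X 0 ^ n) = D (X 1) * (pp c (Polynomial.derivative f) * X 0 ^ n) +
      X1 * ((n : RR) * pp c f * X 0 ^ n) := by
  have h1 : D (pp c f) = pp c (Polynomial.derivative f) * D (X 1) := by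
    unfold pp
    rw [Derivation.map_aeval, map_add, smul_eq_mul]
    congr 1
    have : D (C c : RR) = 0 := D.map_algebraMap c
    rw [this, zero_add]
  rw [Derivation.leibniz, Derivation.leibniz_pow, h1, h, smul_eq_mul, smul_eq_mul]
  rcases Nat.eq_zero_or_pos n with rfl | hn
  · simp; ring
  · obtain ⟨j, rfl⟩ : ∃ j, n = j + 1 := ⟨n - 1, by omega⟩
    simp only [nsmul_eq_mul, smul_eq_mul, Nat.add_sub_cancel]
    ring

theorem core (hLOG : LOG) (hTR : TRANSFER) {a : ℕ → ℂ} {Q F : ℕ → RatFunc ℂ} (ha0 : a 0 = 1)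
    (hQ : IsLabel a Q) (hF : IsSlope Q F) {xs : ℂ} {m : ℕ} (hm : 1 ≤ m) (h0 : xs ≠ 0)
    (h2 : xs ^ 2 ≠ 1) (hxm : xs ^ (2 * m) = 1) :
    ∃ X1 X2 : RR, coeff 0 X1 = 0 ∧ coeff (Finsupp.single 1 1) X1 ≠ 0 ∧
      ∀ (K : ℕ) (f : ℕ → Polynomial ℂ) (g : Polynomial ℂ), g ≠ 0 →
        (∀ n ≤ K, F n = pr (f n) / pr g) → ∀ e : Fin 2 →₀ ℕ, e 0 ≤ K →
          coeff e (X1 * ∑ n ∈ Finset.range (K + 1),
            Polynomial.aeval (C ((xs + xs⁻¹) / 2) + X 1 : RR) (f n) * (X 0) ^ n) =
          coeff e (X2 * Polynomial.aeval (C ((xs + xs⁻¹) / 2) + X 1 : RR) g) := by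
  classical
  have hA : PowerSeries.constantCoeff (PowerSeries.mk (Ac a)) = 1 / 2 := by
    rw [← PowerSeries.coeff_zero_eq_constantCoeff_apply, PowerSeries.coeff_mk]
    simp [Ac, ha0]
  have hB : PowerSeries.constantCoeff (PowerSeries.mk (Bc a)) = 1 / 2 := by
    rw [← PowerSeries.coeff_zero_eq_constantCoeff_apply, PowerSeries.coeff_mk]
    simp [Bc, ha0]
  obtain ⟨ζ, ζi, av, hinv, hs, hav0, hp1, hp2, hdd, hl⟩ := exists_T (xs := xs) hA hB h0 h2
  set c : ℂ := (xs + xs⁻¹) / 2 with hc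
  set c1 : ℂ := 4 / (xs - xs⁻¹) with hc1
  have hc1' : c1 ≠ 0 := by
    rw [hc1]
    refine div_ne_zero (by norm_num) ?_
    intro h
    apply h2
    field_simp at h
    linear_combination h
  have hN : (X 0 : RR) ∣ av 0 := by rw [hav0]; exact dvd_mul_right _ _
  set T : RR →ₐ[ℂ] RR := substAlgHom hs with hT
  have hqm : (xs ^ 2) ^ m = 1 := by rw [← pow_mul]; exact hxm
  obtain ⟨D, hD⟩ := hLOG (T ^ m) (fun k f hf => T_pow_unip hs hN hdd hl hqm k f hf)
  have hpow : ∀ (n : ℕ) (f : RR), ((T ^ m) ^ n) f = (T ^ (m * n)) f := fun n f => by rw [← pow_mul]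
  -- `D (X 0)`
  have hDN : (X 0 : RR) ∣ D (X 0) := by
    rw [X_dvd_iff]
    intro e he
    obtain ⟨P, hP, hP'⟩ := hD e (X 0)
    have : P = 0 := by
      apply poly_ext_nat
      intro n
      rw [hP, hpow, Polynomial.eval_zero]
      have h3 := dvd_T_pow_pow hs hN 1 (m * n) (f := (X 0 : RR)) (by rw [pow_one])
      rw [pow_one] at h3
      exact X_dvd_iff.1 h3 e he
    rw [hP', this]; simp
  obtain ⟨X1, hX1⟩ := hDN
  have hlow : ∀ (k : ℕ) (e : Fin 2 →₀ ℕ), wt e < 4 → coeff e ((T ^ k) (X 0)) =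
      coeff e (X 0 * (C ((xs ^ 2) ^ k) * (1 + C (k * c1) * X 1))) := by
    intro k e he
    have := T_pow_N hs hdd hl k e he
    rw [map_sub, sub_eq_zero] at this
    rw [this]
    congr 1
    ring
  have hqn : ∀ n : ℕ, (xs ^ 2) ^ (m * n) = 1 := fun n => by rw [pow_mul, hqm, one_pow]
  have h00 : coeff 0 X1 = 0 := by
    rw [← coeff_X0_mul X1 0, ← hX1, add_zero]
    obtain ⟨P, hP, hP'⟩ := hD (Finsupp.single 0 1) (X 0)
    have : P = 1 := by
      apply poly_ext_nat
      intro n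
      rw [hP, hpow, hlow _ _ (by rw [wt_single0]; norm_num), hqn]
      have := coeff_X0_mul (C 1 * (1 + C (((m * n : ℕ) : ℂ) * c1) * X 1)) 0
      rw [add_zero] at this
      rw [this]
      simp
    rw [hP', this]; simp
  have h01 : coeff (Finsupp.single 1 1) X1 = m * c1 := by
    rw [← coeff_X0_mul X1 (Finsupp.single 1 1), ← hX1]
    obtain ⟨P, hP, hP'⟩ := hD (Finsupp.single 0 1 + Finsupp.single 1 1) (X 0)
    have : P = Polynomial.C (m * c1) * Polynomial.X := by
      apply poly_ext_nat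
      intro n
      rw [hP, hpow, hlow _ _ (by rw [wt_add, wt_single0, wt_single1]; norm_num), hqn,
        coeff_X0_mul]
      rw [map_one, one_mul, map_add]
      have e1 : coeff (Finsupp.single (1 : Fin 2) 1) (1 : RR) = 0 := by
        rw [coeff_one, if_neg]
        intro h
        simp at h
      have e2 : coeff (Finsupp.single (1 : Fin 2) 1) (C (((m * n : ℕ) : ℂ) * c1) * X 1 : RR) =
          ((m * n : ℕ) : ℂ) * c1 := by
        rw [coeff_C_mul, coeff_X, if_pos rfl, mul_one]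
      rw [e1, e2, Polynomial.eval_mul, Polynomial.eval_C, Polynomial.eval_X]
      push_cast
      ring
    rw [hP', this]; simp
  refine ⟨X1, D (X 1), h00, ?_, ?_⟩
  · rw [h01]
    exact mul_ne_zero (by exact_mod_cast (show m ≠ 0 by omega)) hc1'
  intro K f g hg hFf e he
  obtain ⟨q, P, hq, hP⟩ := common_denom Q K
  set U : RR := ∑ n ∈ Finset.range (K + 1), pp c (P n) * X 0 ^ n with hU
  have hlab := label_T hTR ha0 hQ hinv hs hav0 hp1 hp2 hq hP
  rw [← hU] at hlab
  have hlabk := label_T_pow hs hN hdd hq hlab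
  -- the derivation
  have hrel : (X 0 : RR) ^ (K + 1) ∣ D U * pp c q - U * D (pp c q) := by
    rw [X_pow_dvd_iff]
    intro e' he'
    rw [map_sub, sub_eq_zero]
    refine log_rel hD fun n => ?_
    have := X_pow_dvd_iff.1 (hlabk (m * n)) e' he'
    rw [map_sub, sub_eq_zero] at this
    rw [hpow, hpow]
    exact this
  set w : ℕ → Polynomial ℂ := fun j => Polynomial.derivative (P j) * q -
    P j * Polynomial.derivative q with hw
  have hmul : ∀ f g : Polynomial ℂ, pp c (f * g) = pp c f * pp c g := fun f g => map_mul _ _ _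
  have hsub : ∀ f g : Polynomial ℂ, pp c (f - g) = pp c f - pp c g := fun f g => map_sub _ _ _
  have hDU : D U * pp c q - U * D (pp c q) =
      D (X 1) * (∑ j ∈ Finset.range (K + 1), pp c (w j) * X 0 ^ j) +
      X1 * (∑ n ∈ Finset.range (K + 1), pp c ((n : Polynomial ℂ) * P n * q) * X 0 ^ n) := by
    have hDq : D (pp c q) = D (X 1) * pp c (Polynomial.derivative q) := by
      have := D_term D c q 0 hX1
      simpa using this
    rw [hDq, hU, map_sum, Finset.sum_mul, Finset.sum_mul, Finset.mul_sum, Finset.mul_sum,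
      ← Finset.sum_sub_distrib, ← Finset.sum_add_distrib]
    refine Finset.sum_congr rfl fun n _ => ?_
    have hn : pp c ((n : Polynomial ℂ)) = (n : RR) := map_natCast _ _
    rw [D_term D c (P n) n hX1, hw]
    simp only [hmul, hsub, hn]
    ring
  -- the slope relation
  have hfw : ∀ n ≤ K, ∑ i ∈ Finset.range (n + 1), f i * w (n - i) =
      -((n : Polynomial ℂ) * P n * q * g) := by
    intro n hn
    have h3 := congrArg (PowerSeries.coeff n) hF
    rw [PowerSeries.coeff_mul, map_neg, PowerSeries.coeff_mk,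
      Finset.Nat.sum_antidiagonal_eq_sum_range_succ_mk] at h3
    simp only [PowerSeries.coeff_mk] at h3
    have hq' : pr q ≠ 0 := pr_ne_zero hq
    have hg' : pr g ≠ 0 := pr_ne_zero hg
    have e1 : ∀ f g : Polynomial ℂ, pr (f * g) = pr f * pr g := fun f g => map_mul _ _ _
    have h4 : ∀ i ∈ Finset.range (n + 1), F i * rD (Q (n - i)) * (pr g * pr q ^ 2) =
        pr (f i * w (n - i)) := by
      intro i hi
      have hi' := Finset.mem_range.1 hi
      rw [hFf i (by omega), hP (n - i) (by omega), e1, hw]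
      have := rD_div (P (n - i)) q hq
      rw [← this]
      field_simp
    have h5 : pr (∑ i ∈ Finset.range (n + 1), f i * w (n - i)) =
        pr (-((n : Polynomial ℂ) * P n * q * g)) := by
      have e2 : pr (∑ i ∈ Finset.range (n + 1), f i * w (n - i)) =
          ∑ i ∈ Finset.range (n + 1), pr (f i * w (n - i)) := map_sum _ _ _
      have e3 : pr (-((n : Polynomial ℂ) * P n * q * g)) =
          -((n : RatFunc ℂ) * pr (P n) * pr q * pr g) := by
        unfold pr
        rw [map_neg, map_mul, map_mul, map_mul, map_natCast]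
      rw [e2, ← Finset.sum_congr rfl h4, ← Finset.sum_mul, h3, e3, hP n hn]
      field_simp
    exact RatFunc.algebraMap_injective ℂ h5
  set fs : RR := ∑ n ∈ Finset.range (K + 1), pp c (f n) * X 0 ^ n with hfs
  set ws : RR := ∑ j ∈ Finset.range (K + 1), pp c (w j) * X 0 ^ j with hws
  set ss : RR := ∑ n ∈ Finset.range (K + 1), pp c ((n : Polynomial ℂ) * P n * q) * X 0 ^ n
    with hss
  have hfws : (X 0 : RR) ^ (K + 1) ∣ fs * ws + pp c g * ss := by
    have h3 := conv (fun n => pp c (f n)) (fun n => pp c (w n)) (X 0 : RR) K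
    have h4 : ∑ n ∈ Finset.range (K + 1), (∑ i ∈ Finset.range (n + 1),
        pp c (f i) * pp c (w (n - i))) * (X 0 : RR) ^ n = -(pp c g * ss) := by
      rw [hss, Finset.mul_sum, ← Finset.sum_neg_distrib]
      refine Finset.sum_congr rfl fun n hn => ?_
      have h5 := congrArg (pp c) (hfw n (by have := Finset.mem_range.1 hn; omega))
      have e4 : pp c (∑ i ∈ Finset.range (n + 1), f i * w (n - i)) =
          ∑ i ∈ Finset.range (n + 1), pp c (f i) * pp c (w (n - i)) := by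
        rw [← Finset.sum_congr rfl fun i _ => hmul _ _]
        exact map_sum _ _ _
      have e5 : pp c (-((n : Polynomial ℂ) * P n * q * g)) =
          -(pp c ((n : Polynomial ℂ) * P n * q) * pp c g) := by
        rw [← hmul]; exact map_neg _ _
      rw [e4, e5] at h5
      rw [h5]
      ring
    rw [h4, sub_neg_eq_add] at h3
    exact h3
  -- conclusion
  have hw0 : w 0 = q ^ 2 := by
    have h3 := hP 0 (by omega)
    rw [hQ.1] at h3
    have hq' : pr q ≠ 0 := pr_ne_zero hq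
    have h4 : pr (P 0) = pr (Polynomial.X * q) := by
      have e1 : pr (Polynomial.X * q) = RatFunc.X * pr q := by
        unfold pr; rw [map_mul, RatFunc.algebraMap_X]
      rw [e1, h3, div_mul_cancel₀ _ hq']
    have h5 : P 0 = Polynomial.X * q := RatFunc.algebraMap_injective ℂ h4
    show Polynomial.derivative (P 0) * q - P 0 * Polynomial.derivative q = q ^ 2
    rw [h5, Polynomial.derivative_mul, Polynomial.derivative_X]
    ring
  have hndw : ¬ (X 0 : RR) ∣ ws := by
    intro h3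
    have h4 : (X 0 : RR) ∣ ws - pp c (w 0) := by
      rw [hws, Finset.sum_range_succ', pow_zero, mul_one, add_sub_cancel_right]
      exact Finset.dvd_sum fun i _ => by
        rw [pow_succ, ← mul_assoc]; exact dvd_mul_left _ _
    have h5 := dvd_sub h3 h4
    rw [sub_sub_cancel, hw0] at h5
    exact not_dvd_pp c (pow_ne_zero 2 hq) h5
  have hfin : (X 0 : RR) ^ (K + 1) ∣ ws * (X1 * fs - D (X 1) * pp c g) := by
    rw [hDU] at hrel
    have h3 := dvd_sub (Dvd.dvd.mul_left hfws X1) (Dvd.dvd.mul_left hrel (pp c g))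
    convert h3 using 1
    ring
  have hfin2 := cancel hndw hfin
  have := X_pow_dvd_iff.1 hfin2 e (by omega)
  rw [map_sub, sub_eq_zero] at this
  exact this

theorem s2sp_of (hLOG : LOG) (hTR : TRANSFER) (hEND : END) : Vale.Agent.P097.D3.S2sp := by
  intro a Q F ha0 ha1 hQ hF x m hm h0 h2 hxm
  obtain ⟨X1, X2, h00, h01, H⟩ := core hLOG hTR ha0 hQ hF hm h0 h2 hxm
  exact hEND F _ X1 X2 h00 h01 H

end Vale.Agent.P097.H490.D3
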