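import Vale.Agent.P097.H490.D3.Wt

/-!
P097, disc case, block D3 (S2): the logarithm of a unipotent endomorphism of `ℂ[[N, δ]]`.
-/

set_option linter.all false

namespace Vale.Agent.P097.H490.D3

open MvPowerSeries

/-- the binomial polynomial `X (X-1) ... (X-j+1) / j!` -/
noncomputable def bin (j : ℕ) : Polynomial ℂ :=
  Polynomial.C ((j.factorial : ℂ)⁻¹) * descPochhammer ℂ j

lemma bin_eval (j n : ℕ) : (bin j).eval (n : ℂ) = (n.choose j : ℂ) := by
  rw [bin, Polynomial.eval_mul, Polynomial.eval_C, descPochhammer_eval_eq_descFactorial,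
    Nat.descFactorial_eq_factorial_mul_choose]
  push_cast
  rw [← mul_assoc, inv_mul_cancel₀ (by exact_mod_cast Nat.factorial_ne_zero j), one_mul]

lemma poly_ext_nat' {P R : Polynomial ℂ} (h : ∀ n : ℕ, P.eval (n : ℂ) = R.eval (n : ℂ)) :
    P = R := by
  refine Polynomial.eq_of_infinite_eval_eq P R ?_
  refine Set.Infinite.mono (s := Set.range (fun n : ℕ => (n : ℂ))) ?_
    (Set.infinite_range_of_injective Nat.cast_injective)
  rintro _ ⟨n, rfl⟩
  exact h n

section

variable {τ : RR →ₐ[ℂ] RR} (hτ : ∀ k f, J k f → J (k + 1) (τ f - f))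

/-- `τ - 1` -/
noncomputable def nu (τ : RR →ₐ[ℂ] RR) : Module.End ℂ RR := τ.toLinearMap - 1

include hτ in
lemma nu_pow_J (j k : ℕ) (f : RR) (hf : J k f) : J (k + j) ((nu τ ^ j) f) := by
  induction j with
  | zero => simpa using hf
  | succ j ih =>
    rw [pow_succ', Module.End.mul_apply]
    exact hτ _ _ ih

lemma pow_eq (n : ℕ) (f : RR) : (τ ^ n) f =
    ∑ j ∈ Finset.range (n + 1), (n.choose j : ℂ) • (nu τ ^ j) f := by
  have h1 : τ.toLinearMap = nu τ + 1 := by simp [nu]
  have h2 : ∀ n : ℕ, (τ ^ n) f = (τ.toLinearMap ^ n) f := by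
    intro n
    induction n with
    | zero => simp
    | succ n ih =>
      rw [pow_succ', pow_succ', Module.End.mul_apply, AlgHom.mul_apply, ih]
      rfl
  rw [h2, h1, (Commute.one_right (nu τ)).add_pow, LinearMap.sum_apply]
  refine Finset.sum_congr rfl fun j _ => ?_
  rw [one_pow, mul_one, Module.End.mul_apply, Module.End.natCast_apply,
    ← Nat.cast_smul_eq_nsmul ℂ, map_smul]

/-- the interpolating polynomial -/
noncomputable def ip (τ : RR →ₐ[ℂ] RR) (e : Fin 2 →₀ ℕ) (f : RR) : Polynomial ℂ :=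
  ∑ j ∈ Finset.range (wt e + 1), Polynomial.C (coeff e ((nu τ ^ j) f)) * bin j

include hτ in
lemma ip_eval (e : Fin 2 →₀ ℕ) (f : RR) (n : ℕ) :
    (ip τ e f).eval (n : ℂ) = coeff e ((τ ^ n) f) := by
  rw [ip, Polynomial.eval_finset_sum, pow_eq, map_sum]
  simp only [Polynomial.eval_mul, Polynomial.eval_C, bin_eval, map_smul, smul_eq_mul]
  have h1 : ∀ j, wt e < j → coeff e ((nu τ ^ j) f) = 0 := by
    intro j hj
    have := nu_pow_J hτ j 0 f (J.zero' f)
    exact this e (by omega)
  have h2 : ∀ M, wt e + 1 ≤ M → ∑ j ∈ Finset.range (wt e + 1),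
      coeff e ((nu τ ^ j) f) * (n.choose j : ℂ) =
      ∑ j ∈ Finset.range M, coeff e ((nu τ ^ j) f) * (n.choose j : ℂ) := by
    intro M hM
    refine Finset.sum_subset (Finset.range_mono hM) fun j _ hj => ?_
    rw [Finset.mem_range, not_lt] at hj
    rw [h1 j (by omega), zero_mul]
  have h3 : ∀ M, n + 1 ≤ M → ∑ j ∈ Finset.range (n + 1),
      (n.choose j : ℂ) * coeff e ((nu τ ^ j) f) =
      ∑ j ∈ Finset.range M, coeff e ((nu τ ^ j) f) * (n.choose j : ℂ) := by
    intro M hM
    simp only [mul_comm (n.choose _ : ℂ)]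
    refine Finset.sum_subset (Finset.range_mono hM) fun j _ hj => ?_
    rw [Finset.mem_range, not_lt] at hj
    rw [Nat.choose_eq_zero_of_lt (by omega), Nat.cast_zero, mul_zero]
  rw [h2 (max (wt e + 1) (n + 1)) (le_max_left _ _), h3 (max (wt e + 1) (n + 1)) (le_max_right _ _)]

include hτ in
lemma ip_mul (e : Fin 2 →₀ ℕ) (f g : RR) : ip τ e (f * g) =
    ∑ d ∈ Finset.HasAntidiagonal.antidiagonal e, ip τ d.1 f * ip τ d.2 g := by
  classical
  apply poly_ext_nat'
  intro n
  rw [ip_eval hτ, map_mul, coeff_mul, Polynomial.eval_finset_sum]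
  refine Finset.sum_congr rfl fun d _ => ?_
  rw [Polynomial.eval_mul, ip_eval hτ, ip_eval hτ]

include hτ in
lemma ip_eval_zero (e : Fin 2 →₀ ℕ) (f : RR) : (ip τ e f).eval 0 = coeff e f := by
  have := ip_eval hτ e f 0
  simpa using this

/-- the logarithm, as a linear map -/
noncomputable def logL (τ : RR →ₐ[ℂ] RR) : RR →ₗ[ℂ] RR where
  toFun f := fun e => (ip τ e f).derivative.eval 0
  map_add' f g := by
    ext e
    show (ip τ e (f + g)).derivative.eval 0 =
      (ip τ e f).derivative.eval 0 + (ip τ e g).derivative.eval 0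
    rw [← Polynomial.eval_add, ← Polynomial.derivative_add]
    congr 2
    simp only [ip, map_add, add_mul, Finset.sum_add_distrib]
  map_smul' c f := by
    ext e
    show (ip τ e (c • f)).derivative.eval 0 = c * (ip τ e f).derivative.eval 0
    have : ip τ e (c • f) = Polynomial.C c * ip τ e f := by
      simp only [ip, map_smul, smul_eq_mul, map_mul, Finset.mul_sum, mul_assoc]
    rw [this, Polynomial.derivative_C_mul, Polynomial.eval_mul, Polynomial.eval_C]

lemma coeff_logL (e : Fin 2 →₀ ℕ) (f : RR) :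
    coeff e (logL τ f) = (ip τ e f).derivative.eval 0 := rfl

include hτ in
lemma logL_mul (f g : RR) : logL τ (f * g) = f * logL τ g + g * logL τ f := by
  classical
  ext e
  rw [coeff_logL, ip_mul hτ, Polynomial.derivative_sum, Polynomial.eval_finset_sum, map_add,
    mul_comm g, coeff_mul, coeff_mul, ← Finset.sum_add_distrib]
  refine Finset.sum_congr rfl fun d _ => ?_
  rw [Polynomial.derivative_mul, Polynomial.eval_add, Polynomial.eval_mul, Polynomial.eval_mul,
    ip_eval_zero hτ, ip_eval_zero hτ, coeff_logL, coeff_logL]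
  ring

end

/-- **the logarithm of a unipotent endomorphism is a derivation** -/
theorem exists_log (τ : RR →ₐ[ℂ] RR) (hτ : ∀ k f, J k f → J (k + 1) (τ f - f)) :
    ∃ D : Derivation ℂ RR RR, ∀ (e : Fin 2 →₀ ℕ) (f : RR), ∃ P : Polynomial ℂ,
      (∀ n : ℕ, P.eval (n : ℂ) = coeff e ((τ ^ n) f)) ∧
        coeff e (D f) = P.derivative.eval 0 := by
  refine ⟨Derivation.mk' (logL τ) fun f g => ?_, fun e f => ⟨ip τ e f, ip_eval hτ e f, rfl⟩⟩
  rw [logL_mul hτ, smul_eq_mul, smul_eq_mul]

end Vale.Agent.P097.H490.D3
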