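import Vale.Agent.P097.H490.D3.TMap
import Vale.Agent.P097.H123.S2Glue

/-!
P097, disc case, block D3 (S2): the main deduction.  `LOG`, `TRANSFER`, `END` are the three side
blocks (as propositions).
-/

set_option linter.all false

namespace Vale.Agent.P097.H490.D3

open MvPowerSeries
open Vale.Agent.P097.Disc Vale.Agent.P097.D3

/-- logarithm of a unipotent endomorphism -/
def LOG : Prop := ∀ τ : RR →ₐ[ℂ] RR, (∀ k f, J k f → J (k + 1) (τ f - f)) →
  ∃ D : Derivation ℂ RR RR, ∀ (e : Fin 2 →₀ ℕ) (f : RR), ∃ P : Polynomial ℂ,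
    (∀ n : ℕ, P.eval (n : ℂ) = coeff e ((τ ^ n) f)) ∧ coeff e (D f) = P.derivative.eval 0

/-- the symmetry of the label in an arbitrary algebra, `z` nilpotent -/
def TRANSFER : Prop := ∀ (a : ℕ → ℂ) (Q : ℕ → RatFunc ℂ), a 0 = 1 → IsLabel a Q →
  ∀ (K : ℕ) (P : ℕ → Polynomial ℂ) (q : Polynomial ℂ), q ≠ 0 →
    (∀ n ≤ K, Q n = pr (P n) / pr q) →
    ∀ (S : Type) [CommRing S] [Algebra ℂ S] (z x y : S), x * y = 1 → z ^ (K + 1) = 0 →
      (∑ n ∈ Finset.range (K + 1), Polynomial.aeval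
        ((∑ m ∈ Finset.range (K + 1), algebraMap ℂ S (Ac a m) * z ^ m) * x +
          (∑ m ∈ Finset.range (K + 1), algebraMap ℂ S (Bc a m) * z ^ m) * y) (P n) *
            (z * x) ^ n) *
        Polynomial.aeval
        ((∑ m ∈ Finset.range (K + 1), algebraMap ℂ S (Ac a m) * z ^ m) * y +
          (∑ m ∈ Finset.range (K + 1), algebraMap ℂ S (Bc a m) * z ^ m) * x) q =
      (∑ n ∈ Finset.range (K + 1), Polynomial.aeval
        ((∑ m ∈ Finset.range (K + 1), algebraMap ℂ S (Ac a m) * z ^ m) * y +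
          (∑ m ∈ Finset.range (K + 1), algebraMap ℂ S (Bc a m) * z ^ m) * x) (P n) *
            (z * y) ^ n) *
        Polynomial.aeval
        ((∑ m ∈ Finset.range (K + 1), algebraMap ℂ S (Ac a m) * z ^ m) * x +
          (∑ m ∈ Finset.range (K + 1), algebraMap ℂ S (Bc a m) * z ^ m) * y) q

/-- the end of the proof: Weierstrass in degree one and comparison with rational functions -/
def END : Prop := ∀ (F : ℕ → RatFunc ℂ) (c : ℂ) (X1 X2 : RR), coeff 0 X1 = 0 →
  coeff (Finsupp.single 1 1) X1 ≠ 0 →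
  (∀ (K : ℕ) (f : ℕ → Polynomial ℂ) (g : Polynomial ℂ), g ≠ 0 →
    (∀ n ≤ K, F n = pr (f n) / pr g) → ∀ e : Fin 2 →₀ ℕ, e 0 ≤ K →
      coeff e (X1 * ∑ n ∈ Finset.range (K + 1), Polynomial.aeval (C c + X 1 : RR) (f n) *
        (X 0) ^ n) = coeff e (X2 * Polynomial.aeval (C c + X 1 : RR) g)) →
  ∃ φ : ℕ → ℂ, φ 0 = 0 ∧ ∀ n, RegAt ((RatFunc.X - RatFunc.C c) * F n -
    ∑ i ∈ Finset.range (n + 1), RatFunc.C (φ i) * F (n - i)) c

/-- `X 0` is prime -/
lemma prime_X0 : Prime (X 0 : RR) := by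
  have h := (MulEquiv.prime_iff (MvPowerSeries.finSuccEquiv ℂ 1) (p := (X 0 : RR))).1
  rw [MvPowerSeries.finSuccEquiv_X_zero] at h
  haveI : IsDomain (MvPowerSeries (Fin 1) ℂ) := NoZeroDivisors.to_isDomain _
  exact h PowerSeries.X_prime

/-- substitution of a truncation -/
lemma sN_trunc (A : PowerSeries ℂ) (ζ : RR) (K : ℕ) :
    (X 0 : RR) ^ (K + 1) ∣ sN A ζ -
      ∑ m ∈ Finset.range (K + 1), C (PowerSeries.coeff m A) * (X 0 * ζ) ^ m := by
  set p : Polynomial ℂ := ∑ m ∈ Finset.range (K + 1),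
    Polynomial.C (PowerSeries.coeff m A) * Polynomial.X ^ m with hp
  have h1 : (PowerSeries.X : PowerSeries ℂ) ^ (K + 1) ∣ A - (p : PowerSeries ℂ) := by
    rw [PowerSeries.X_pow_dvd_iff]
    intro m hm
    rw [map_sub, Polynomial.coeff_coe, hp, Polynomial.finset_sum_coeff]
    simp only [Polynomial.coeff_C_mul, Polynomial.coeff_X_pow, mul_ite, mul_one, mul_zero]
    rw [Finset.sum_ite_eq, if_pos (Finset.mem_range.2 hm), sub_self]
  obtain ⟨g, hg⟩ := h1
  have h2 : sN A ζ - sN (p : PowerSeries ℂ) ζ = (X 0 * ζ) ^ (K + 1) * sN g ζ := by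
    rw [← sN_fsub, hg]
    unfold sN
    rw [PowerSeries.subst_mul (hs_X0_mul ζ), PowerSeries.subst_pow (hs_X0_mul ζ),
      PowerSeries.subst_X (hs_X0_mul ζ)]
  have h3 : sN (p : PowerSeries ℂ) ζ =
      ∑ m ∈ Finset.range (K + 1), C (PowerSeries.coeff m A) * (X 0 * ζ) ^ m := by
    unfold sN
    rw [PowerSeries.subst_coe (hs_X0_mul ζ), hp, map_sum]
    refine Finset.sum_congr rfl fun m _ => ?_
    rw [map_mul, map_pow, Polynomial.aeval_X, Polynomial.aeval_C]
    rfl
  rw [← h3, h2, mul_pow, mul_assoc]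
  exact dvd_mul_right _ _

/-- truncated Cauchy product -/
lemma conv {S : Type*} [CommRing S] (f w : ℕ → S) (x : S) (K : ℕ) :
    x ^ (K + 1) ∣ (∑ i ∈ Finset.range (K + 1), f i * x ^ i) *
      (∑ j ∈ Finset.range (K + 1), w j * x ^ j) -
      ∑ n ∈ Finset.range (K + 1), (∑ i ∈ Finset.range (n + 1), f i * w (n - i)) * x ^ n := by
  classical
  set Pf : Polynomial S := ∑ i ∈ Finset.range (K + 1), Polynomial.C (f i) * Polynomial.X ^ i
  set Pw : Polynomial S := ∑ i ∈ Finset.range (K + 1), Polynomial.C (w i) * Polynomial.X ^ i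
  set Pc : Polynomial S := ∑ n ∈ Finset.range (K + 1),
    Polynomial.C (∑ i ∈ Finset.range (n + 1), f i * w (n - i)) * Polynomial.X ^ n
  have hco : ∀ (g : ℕ → S) (n : ℕ), (∑ i ∈ Finset.range (K + 1),
      Polynomial.C (g i) * Polynomial.X ^ i).coeff n = if n < K + 1 then g n else 0 := by
    intro g n
    rw [Polynomial.finset_sum_coeff]
    simp only [Polynomial.coeff_C_mul, Polynomial.coeff_X_pow, mul_ite, mul_one, mul_zero]
    rw [Finset.sum_ite_eq]
    simp
  have hdvd : Polynomial.X ^ (K + 1) ∣ Pf * Pw - Pc := by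
    rw [Polynomial.X_pow_dvd_iff]
    intro n hn
    rw [Polynomial.coeff_sub, Polynomial.coeff_mul, hco, if_pos hn,
      Finset.Nat.sum_antidiagonal_eq_sum_range_succ_mk, sub_eq_zero]
    refine Finset.sum_congr rfl fun i hi => ?_
    have hi' := Finset.mem_range.1 hi
    rw [hco, hco, if_pos (by omega), if_pos (by omega)]
  have h := map_dvd (Polynomial.evalRingHom x) hdvd
  simpa [Pf, Pw, Pc, Polynomial.eval_finset_sum] using h

/-- derivative of a quotient -/
lemma rD_div (P q : Polynomial ℂ) (hq : q ≠ 0) :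
    rD (pr P / pr q) * pr q ^ 2 =
      pr (Polynomial.derivative P * q - P * Polynomial.derivative q) := by
  set r : RatFunc ℂ := pr P / pr q with hr
  have hq' : pr q ≠ 0 := pr_ne_zero hq
  have hd : r.denom ≠ 0 := RatFunc.denom_ne_zero r
  have hd' : pr r.denom ≠ 0 := pr_ne_zero hd
  have h1 : P * r.denom = r.num * q := by
    have h2 : pr P / pr q = pr r.num / pr r.denom := (RatFunc.num_div_denom r).symm
    rw [div_eq_div_iff hq' hd'] at h2
    have h3 : pr (P * r.denom) = pr (r.num * q) := by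
      unfold pr at *; rw [map_mul, map_mul, h2]
    exact RatFunc.algebraMap_injective ℂ h3
  have h4 := congrArg Polynomial.derivative h1
  rw [Polynomial.derivative_mul, Polynomial.derivative_mul] at h4
  have h5 : (Polynomial.derivative P * q - P * Polynomial.derivative q) * r.denom ^ 2 =
      (Polynomial.derivative r.num * r.denom - r.num * Polynomial.derivative r.denom) * q ^ 2 := by
    linear_combination (q * r.denom) * h4 - (q * Polynomial.derivative r.denom +
      r.denom * Polynomial.derivative q) * h1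
  have h6 := congrArg pr h5
  unfold rD
  have e1 : ∀ f g : Polynomial ℂ, pr (f * g) = pr f * pr g := fun f g => map_mul _ _ _
  have e2 : ∀ f : Polynomial ℂ, pr (f ^ 2) = pr f ^ 2 := fun f => map_pow _ _ _
  rw [e1 _ (r.denom ^ 2), e1 _ (q ^ 2), e2, e2] at h6
  rw [div_mul_eq_mul_div, div_eq_iff (pow_ne_zero 2 hd'), h6]

/-- common denominators -/
lemma common_denom (Q : ℕ → RatFunc ℂ) (K : ℕ) :
    ∃ (q : Polynomial ℂ) (P : ℕ → Polynomial ℂ), q ≠ 0 ∧ ∀ n ≤ K, Q n = pr (P n) / pr q := by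
  induction K with
  | zero =>
    refine ⟨(Q 0).denom, fun _ => (Q 0).num, RatFunc.denom_ne_zero _, fun n hn => ?_⟩
    obtain rfl : n = 0 := by omega
    exact (RatFunc.num_div_denom _).symm
  | succ K ih =>
    obtain ⟨q, P, hq, hP⟩ := ih
    have hd : (Q (K + 1)).denom ≠ 0 := RatFunc.denom_ne_zero _
    refine ⟨q * (Q (K + 1)).denom, fun n => if n ≤ K then P n * (Q (K + 1)).denom else
      (Q (K + 1)).num * q, mul_ne_zero hq hd, fun n hn => ?_⟩
    have e1 : ∀ f g : Polynomial ℂ, pr (f * g) = pr f * pr g := fun f g => map_mul _ _ _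
    by_cases h : n ≤ K
    · simp only [if_pos h]
      rw [e1, e1, mul_div_mul_right _ _ (pr_ne_zero hd)]
      exact hP n h
    · obtain rfl : n = K + 1 := by omega
      simp only [if_neg h]
      rw [e1, e1, mul_comm (pr q), mul_div_mul_right _ _ (pr_ne_zero hq)]
      exact (RatFunc.num_div_denom _).symm

/-- polynomials in `p = c + δ` -/
noncomputable def pp (c : ℂ) (f : Polynomial ℂ) : RR := Polynomial.aeval (C c + X 1 : RR) f

lemma coeff_aeval_X1 (r : Polynomial ℂ) (j : ℕ) :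
    coeff (Finsupp.single 1 j) (Polynomial.aeval (X 1 : RR) r) = r.coeff j := by
  classical
  rw [Polynomial.aeval_eq_sum_range, map_sum]
  have : ∀ i ∈ Finset.range (r.natDegree + 1),
      coeff (Finsupp.single (1 : Fin 2) j) (r.coeff i • (X 1 : RR) ^ i) =
        if j = i then r.coeff i else 0 := by
    intro i _
    rw [map_smul, coeff_X_pow, smul_eq_mul]
    by_cases h : j = i
    · subst h; simp
    · rw [if_neg h, if_neg, mul_zero]
      intro h1
      exact h (Finsupp.single_injective (1 : Fin 2) h1)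
  rw [Finset.sum_congr rfl this, Finset.sum_ite_eq]
  split_ifs with h
  · rfl
  · rw [Finset.mem_range, not_lt] at h
    exact (Polynomial.coeff_eq_zero_of_natDegree_lt (by omega)).symm

lemma not_dvd_pp (c : ℂ) {f : Polynomial ℂ} (hf : f ≠ 0) : ¬ (X 0 : RR) ∣ pp c f := by
  intro h
  have h1 : Polynomial.taylor c f ≠ 0 := by
    intro h2
    exact hf (Polynomial.taylor_injective c (by rw [h2, map_zero]))
  have h3 : pp c f = Polynomial.aeval (X 1 : RR) (Polynomial.taylor c f) := by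
    unfold pp
    rw [Polynomial.taylor_apply, Polynomial.aeval_comp]
    congr 1
    rw [map_add, Polynomial.aeval_X, Polynomial.aeval_C, add_comm]
    rfl
  apply h1
  ext j
  rw [← coeff_aeval_X1, ← h3, X_dvd_iff.1 h, Polynomial.coeff_zero]
  simp

lemma cancel {u v : RR} {n : ℕ} (hu : ¬ (X 0 : RR) ∣ u) (h : (X 0 : RR) ^ n ∣ u * v) :
    (X 0 : RR) ^ n ∣ v := prime_X0.pow_dvd_of_dvd_mul_left n hu h

lemma aeval_sub_dvd (u v : RR) (f : Polynomial ℂ) :
    u - v ∣ Polynomial.aeval u f - Polynomial.aeval v f := by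
  rw [Polynomial.aeval_def, Polynomial.aeval_def, Polynomial.eval₂_eq_eval_map,
    Polynomial.eval₂_eq_eval_map]
  exact Polynomial.sub_dvd_eval_sub u v _

/-- polynomials agreeing on the integers -/
lemma poly_ext_nat {P R : Polynomial ℂ} (h : ∀ n : ℕ, P.eval (n : ℂ) = R.eval (n : ℂ)) :
    P = R := by
  refine Polynomial.eq_of_infinite_eval_eq P R ?_
  refine Set.Infinite.mono (s := Set.range (fun n : ℕ => (n : ℂ))) ?_
    (Set.infinite_range_of_injective Nat.cast_injective)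
  rintro _ ⟨n, rfl⟩
  exact h n

/-- a relation between `τ^n u` and `τ^n v'` gives a relation between derivatives -/
lemma log_rel {τ : RR →ₐ[ℂ] RR} {D : Derivation ℂ RR RR}
    (hD : ∀ (e : Fin 2 →₀ ℕ) (f : RR), ∃ P : Polynomial ℂ,
      (∀ n : ℕ, P.eval (n : ℂ) = coeff e ((τ ^ n) f)) ∧ coeff e (D f) = P.derivative.eval 0)
    {u v u' v' : RR} {e : Fin 2 →₀ ℕ}
    (h : ∀ n : ℕ, coeff e ((τ ^ n) u * v) = coeff e (u' * (τ ^ n) v')) :
    coeff e (D u * v) = coeff e (u' * D v') := by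
  classical
  choose P hP hP' using hD
  have key : (∑ d ∈ Finset.HasAntidiagonal.antidiagonal e, P d.1 u * Polynomial.C (coeff d.2 v)) =
      ∑ d ∈ Finset.HasAntidiagonal.antidiagonal e, Polynomial.C (coeff d.1 u') * P d.2 v' := by
    apply poly_ext_nat
    intro n
    rw [Polynomial.eval_finset_sum, Polynomial.eval_finset_sum]
    have h1 := h n
    rw [coeff_mul, coeff_mul] at h1
    simp only [Polynomial.eval_mul, Polynomial.eval_C, hP]
    exact h1
  have h2 := congrArg (fun R : Polynomial ℂ => R.derivative.eval 0) key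
  simp only [Polynomial.derivative_sum, Polynomial.eval_finset_sum, Polynomial.derivative_mul,
    Polynomial.derivative_C, mul_zero, add_zero, zero_mul, zero_add, Polynomial.eval_mul,
    Polynomial.eval_C, ← hP'] at h2
  rw [coeff_mul, coeff_mul]
  exact h2

/-- the symmetry of the label near the resonance -/
lemma label_T (hTR : TRANSFER) {a : ℕ → ℂ} {Q : ℕ → RatFunc ℂ} (ha0 : a 0 = 1) (hQ : IsLabel a Q)
    {ζ ζi : RR} {av : Fin 2 → RR} {c : ℂ} (hinv : ζ * ζi = 1) (hs : HasSubst av)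
    (hav0 : av 0 = X 0 * ζ ^ 2)
    (h1 : C c + av 1 = sN (PowerSeries.mk (Ac a)) ζ * ζ + sN (PowerSeries.mk (Bc a)) ζ * ζi)
    (h2 : C c + X 1 = sN (PowerSeries.mk (Ac a)) ζ * ζi + sN (PowerSeries.mk (Bc a)) ζ * ζ)
    {K : ℕ} {P : ℕ → Polynomial ℂ} {q : Polynomial ℂ} (hq : q ≠ 0)
    (hP : ∀ n ≤ K, Q n = pr (P n) / pr q) :
    (X 0 : RR) ^ (K + 1) ∣
      (substAlgHom hs : RR →ₐ[ℂ] RR) (∑ n ∈ Finset.range (K + 1), pp c (P n) * X 0 ^ n) * pp c q -
      (∑ n ∈ Finset.range (K + 1), pp c (P n) * X 0 ^ n) *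
        (substAlgHom hs : RR →ₐ[ℂ] RR) (pp c q) := by
  set I : Ideal RR := Ideal.span {(X 0 : RR) ^ (K + 1)} with hI
  set π : RR →ₐ[ℂ] (RR ⧸ I) := Ideal.Quotient.mkₐ ℂ I with hπ
  have hπ0 : π ((X 0 : RR) ^ (K + 1)) = 0 :=
    Ideal.Quotient.eq_zero_iff_mem.2 (Ideal.subset_span rfl)
  have hdz : ∀ f : RR, (X 0 : RR) ^ (K + 1) ∣ f → π f = 0 := fun f hf =>
    Ideal.Quotient.eq_zero_iff_mem.2 (Ideal.mem_span_singleton.2 hf)
  have hz : (π (X 0 * ζ)) ^ (K + 1) = 0 := by
    rw [← map_pow, mul_pow]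
    exact hdz _ (dvd_mul_right _ _)
  have hxy : π ζ * π ζi = 1 := by rw [← map_mul, hinv, map_one]
  have hsum : ∀ w : ℕ → ℂ, ∑ m ∈ Finset.range (K + 1),
      algebraMap ℂ (RR ⧸ I) (w m) * (π (X 0 * ζ)) ^ m = π (sN (PowerSeries.mk w) ζ) := by
    intro w
    have h3 := hdz _ (sN_trunc (PowerSeries.mk w) ζ K)
    rw [map_sub, sub_eq_zero] at h3
    rw [h3, map_sum]
    refine Finset.sum_congr rfl fun m _ => ?_
    rw [PowerSeries.coeff_mk, map_mul π (C (w m)) _, map_pow π _ m]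
    rfl
  have key := hTR a Q ha0 hQ K P q hq hP (RR ⧸ I) (π (X 0 * ζ)) (π ζ) (π ζi) hxy hz
  rw [hsum, hsum] at key
  have hA1 : π (sN (PowerSeries.mk (Ac a)) ζ) * π ζ + π (sN (PowerSeries.mk (Bc a)) ζ) * π ζi =
      π (C c + av 1) := by rw [h1]; simp only [map_add, map_mul]
  have hA2 : π (sN (PowerSeries.mk (Ac a)) ζ) * π ζi + π (sN (PowerSeries.mk (Bc a)) ζ) * π ζ =
      π (C c + X 1) := by rw [h2]; simp only [map_add, map_mul]
  have hz1 : π (X 0 * ζ) * π ζ = π (av 0) := by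
    rw [hav0, ← map_mul]; congr 1; ring
  have hz2 : π (X 0 * ζ) * π ζi = π (X 0) := by
    rw [← map_mul, mul_assoc, hinv, mul_one]
  rw [hA1, hA2, hz1, hz2] at key
  have hT : ∀ f : Polynomial ℂ, (substAlgHom hs : RR →ₐ[ℂ] RR) (pp c f) =
      Polynomial.aeval (C c + av 1 : RR) f := by
    intro f
    unfold pp
    rw [← Polynomial.aeval_algHom_apply, map_add, substAlgHom_X]
    congr 3
    exact (substAlgHom hs : RR →ₐ[ℂ] RR).commutes c
  have hlhs : (substAlgHom hs : RR →ₐ[ℂ] RR)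
      (∑ n ∈ Finset.range (K + 1), pp c (P n) * X 0 ^ n) =
      ∑ n ∈ Finset.range (K + 1), Polynomial.aeval (C c + av 1 : RR) (P n) * (av 0) ^ n := by
    rw [map_sum]
    refine Finset.sum_congr rfl fun n _ => ?_
    rw [map_mul, map_pow, substAlgHom_X, hT]
  rw [← Ideal.mem_span_singleton, ← Ideal.Quotient.eq_zero_iff_mem]
  show π _ = 0
  rw [map_sub, sub_eq_zero, hlhs, hT, map_mul, map_mul, map_sum, map_sum]
  simp only [map_mul, map_pow]
  unfold pp
  simp only [← Polynomial.aeval_algHom_apply]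
  exact key

end Vale.Agent.P097.H490.D3
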