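import Vale.Agent.P097.H490.D3.Core
import Vale.Agent.P097.H490.D3.Log
import Vale.Agent.P097.DG.Transfer
import Vale.Agent.P097.H541.S2End

/-!
P097, disc case, block D3: `[S2]`, local structure of the slope of the invariant foliation.
-/

set_option linter.all false

namespace Vale.Agent.P097.H490.D3

open Vale.Agent.P097.Disc Vale.Agent.P097.D3

theorem log : LOG := exists_log

theorem transfer : TRANSFER := by
  intro a Q ha0 hQ K P q hq hP S _ _ z x y hxy hz
  exact Vale.Agent.P097.DG.label_transfer a ha0 Q hQ K P q hq hP z x y hxy hz _ _ rfl rfl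

theorem end' : END := fun F c X1 X2 h00 h01 H => Vale.Agent.P097.H541.s2_end F c X1 X2 h00 h01 H

theorem s2sp : S2sp := s2sp_of log transfer end'

theorem s2 : S2 := s2_of s2sp

end Vale.Agent.P097.H490.D3
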