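import Vale.Agent.P097.H490.D3.Wt

/-!
P097, disc case, block D3 (S2): the reflection map `T` near a resonant point of the zero
section, as a substitution endomorphism of `ℂ[[N, δ]]`.
-/

namespace Vale.Agent.P097.H490.D3

open MvPowerSeries

/-- `f(N ζ)` -/
noncomputable def sN (f : PowerSeries ℂ) (ζ : RR) : RR := PowerSeries.subst (X 0 * ζ) f

lemma cc_X0_mul (ζ : RR) : constantCoeff (X 0 * ζ : RR) = 0 := by simp

lemma hs_X0_mul (ζ : RR) : PowerSeries.HasSubst (X 0 * ζ : RR) :=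
  PowerSeries.HasSubst.of_constantCoeff_zero (cc_X0_mul ζ)

lemma sN_sub {k : ℕ} {ζ ζ' : RR} (h : J k (ζ - ζ')) (f : PowerSeries ℂ) :
    J (k + 2) (sN f ζ - sN f ζ') := by
  refine J_psubst_sub (cc_X0_mul ζ) (cc_X0_mul ζ') ?_ f
  rw [← mul_sub, add_comm]
  exact J_X0.mul h

lemma sN_C (c : ℂ) (ζ : RR) : sN (PowerSeries.C c) ζ = C c := by
  unfold sN; rw [PowerSeries.subst_C]

lemma sN_fsub (f g : PowerSeries ℂ) (ζ : RR) : sN (f - g) ζ = sN f ζ - sN g ζ := by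
  unfold sN; rw [PowerSeries.subst_sub (hs_X0_mul ζ)]

lemma sN_dvd {f : PowerSeries ℂ} (hf : PowerSeries.constantCoeff f = 0) (ζ : RR) :
    (X 0 : RR) ∣ sN f ζ := by
  obtain ⟨g, rfl⟩ := PowerSeries.X_dvd_iff.2 hf
  unfold sN
  rw [PowerSeries.subst_mul (hs_X0_mul ζ), PowerSeries.subst_X (hs_X0_mul ζ), mul_assoc]
  exact dvd_mul_right _ _

lemma J_of_dvd {f : RR} (h : (X 0 : RR) ∣ f) : J 2 f := by
  obtain ⟨g, rfl⟩ := h
  exact J_X0.mul_right g

lemma sN_J {f : PowerSeries ℂ} {c : ℂ} (hf : PowerSeries.constantCoeff f = c) (ζ : RR) :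
    J 2 (sN f ζ - C c) := by
  rw [← sN_C c ζ, ← sN_fsub]
  exact J_of_dvd (sN_dvd (by simp [hf]) ζ)

section

variable (A B : PowerSeries ℂ) (xs : ℂ)

/-- the contraction -/
noncomputable def Phi (x : RR) : RR :=
  C ((xs - xs⁻¹)⁻¹) * (2 * X 1 * (C xs + x) - x ^ 2 -
    2 * (sN B (C xs + x) - C (1 / 2)) * (C xs + x) ^ 2 - 2 * (sN A (C xs + x) - C (1 / 2)))

variable {A B xs}

lemma Phi_J1 (hA : PowerSeries.constantCoeff A = 1 / 2) (hB : PowerSeries.constantCoeff B = 1 / 2)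
    {x : RR} (hx : J 1 x) : J 1 (Phi A B xs x) := by
  unfold Phi
  refine J.mul_left _ ?_
  have h1 : J 1 (2 * X 1 * (C xs + x) : RR) := (J_X1.mul_left 2).mul_right _
  have h2 : J 1 (x ^ 2) := by rw [pow_two]; exact hx.mul_left x
  have h3 : J 1 (2 * (sN B (C xs + x) - C (1 / 2)) * (C xs + x) ^ 2) :=
    (((sN_J hB _).mono (by omega)).mul_left 2).mul_right _
  have h4 : J 1 (2 * (sN A (C xs + x) - C (1 / 2))) :=
    ((sN_J hA _).mono (by omega)).mul_left 2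
  exact ((h1.sub h2).sub h3).sub h4

lemma Phi_contr (hB : PowerSeries.constantCoeff B = 1 / 2)
    {k : ℕ} {x y : RR} (hx : J 1 x) (hy : J 1 y) (h : J k (x - y)) :
    J (k + 1) (Phi A B xs x - Phi A B xs y) := by
  have hζ : J k ((C xs + x) - (C xs + y)) := by
    have : (C xs + x) - (C xs + y) = x - y := by ring
    rw [this]; exact h
  have e : Phi A B xs x - Phi A B xs y = C ((xs - xs⁻¹)⁻¹) * (2 * (X 1 * (x - y))
      - (x - y) * (x + y) - 2 * ((sN B (C xs + x) - sN B (C xs + y)) * (C xs + x) ^ 2)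
      - 2 * ((sN B (C xs + y) - C (1 / 2)) * ((x - y) * (2 * C xs + x + y)))
      - 2 * (sN A (C xs + x) - sN A (C xs + y))) := by
    unfold Phi; ring
  rw [e]
  refine J.mul_left _ ?_
  refine ((((J.mul_left 2 ?_).sub ?_).sub (J.mul_left 2 ?_)).sub (J.mul_left 2 ?_)).sub
    (J.mul_left 2 ?_)
  · rw [add_comm k 1]; exact J_X1.mul h
  · exact h.mul (hx.add hy)
  · exact ((sN_sub hζ B).mul_right _).mono (by omega)
  · exact ((sN_J hB _).mul (h.mul_right _)).mono (by omega)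
  · exact (sN_sub hζ A).mono (by omega)

/-- the boundary angle of the incoming line `(N, p_* + δ)` -/
theorem exists_xb (hA : PowerSeries.constantCoeff A = 1 / 2)
    (hB : PowerSeries.constantCoeff B = 1 / 2) (h0 : xs ≠ 0) (h2 : xs ^ 2 ≠ 1) :
    ∃ x : RR, J 1 x ∧ J 2 (x - C (2 * xs / (xs - xs⁻¹)) * X 1) ∧
      sN B (C xs + x) * (C xs + x) ^ 2 + sN A (C xs + x) =
        (C ((xs + xs⁻¹) / 2) + X 1) * (C xs + x) := by
  obtain ⟨x, hx, hfix⟩ := fixed_point (Phi A B xs) (fun x hx => Phi_J1 hA hB hx)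
    (fun k x y hx hy h => Phi_contr hB hx hy h)
  have hne : xs - xs⁻¹ ≠ 0 := by
    intro h
    apply h2
    field_simp at h
    linear_combination h
  have hC : C (xs - xs⁻¹) * C ((xs - xs⁻¹)⁻¹) = (1 : RR) := by
    rw [← map_mul, mul_inv_cancel₀ hne, map_one]
  have hfix2 : C (xs - xs⁻¹) * x = 2 * X 1 * (C xs + x) - x ^ 2 -
    2 * (sN B (C xs + x) - C (1 / 2)) * (C xs + x) ^ 2 - 2 * (sN A (C xs + x) - C (1 / 2)) := by
    conv_lhs => rw [← hfix]
    unfold Phi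
    rw [← mul_assoc, hC, one_mul]
  refine ⟨x, hx, ?_, ?_⟩
  · have e : x - C (2 * xs / (xs - xs⁻¹)) * X 1 = C ((xs - xs⁻¹)⁻¹) * (2 * (X 1 * x) - x * x -
      2 * (sN B (C xs + x) - C (1 / 2)) * (C xs + x) ^ 2 - 2 * (sN A (C xs + x) - C (1 / 2))) := by
      have e1 : x = C ((xs - xs⁻¹)⁻¹) * (C (xs - xs⁻¹) * x) := by
        rw [← mul_assoc, mul_comm (C ((xs - xs⁻¹)⁻¹) : RR), hC, one_mul]
      have e2 : (C (2 * xs / (xs - xs⁻¹)) : RR) = C ((xs - xs⁻¹)⁻¹) * (2 * C xs) := by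
        have : (2 : RR) = C 2 := by rw [map_ofNat]
        rw [this, ← map_mul, ← map_mul]; congr 1; ring
      conv_lhs => rw [e1, hfix2, e2]
      ring
    rw [e]
    refine J.mul_left _ ?_
    refine (((J.mul_left 2 (J_X1.mul hx)).sub (hx.mul hx)).sub ?_).sub ?_
    · exact ((sN_J hB _).mul_left 2).mul_right _
    · exact (sN_J hA _).mul_left 2
  · have e3 : (C ((xs + xs⁻¹) / 2) : RR) * 2 = C xs + C xs⁻¹ := by
      have : (2 : RR) = C 2 := by rw [map_ofNat]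
      rw [this, ← map_mul, ← map_add]; congr 1; ring
    have e4 : (C xs * C xs⁻¹ : RR) = 1 := by rw [← map_mul, mul_inv_cancel₀ h0, map_one]
    have e5 : (C (xs - xs⁻¹) : RR) = C xs - C xs⁻¹ := by rw [map_sub]
    have e6 : (2 : RR) * C (1 / 2) = 1 := by
      have : (2 : RR) = C 2 := by rw [map_ofNat]
      rw [this, ← map_mul]; norm_num
    have h2 : (2 : RR) ≠ 0 := by
      intro h
      have h3 : (2 : RR) = C 2 := by rw [map_ofNat]
      have := congrArg (fun f : RR => constantCoeff f) (h3.symm.trans h)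
      simp at this
    rw [e5] at hfix2
    apply mul_left_cancel₀ h2
    linear_combination (exp := 1) hfix2 - (C xs + x) * e3 - e4 + e6 * ((C xs + x) ^ 2 + 1)

/-- the reflection map near a resonant point -/
theorem exists_T (hA : PowerSeries.constantCoeff A = 1 / 2)
    (hB : PowerSeries.constantCoeff B = 1 / 2) (h0 : xs ≠ 0) (h2 : xs ^ 2 ≠ 1) :
    ∃ (ζ ζi : RR) (a : Fin 2 → RR), ζ * ζi = 1 ∧ HasSubst a ∧ a 0 = X 0 * ζ ^ 2 ∧
      C ((xs + xs⁻¹) / 2) + a 1 = sN A ζ * ζ + sN B ζ * ζi ∧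
      C ((xs + xs⁻¹) / 2) + X 1 = sN A ζ * ζi + sN B ζ * ζ ∧ (X 0 : RR) ∣ a 1 - X 1 ∧
      J 4 (a 0 - C (xs ^ 2) * X 0 * (1 + C (4 / (xs - xs⁻¹)) * X 1)) := by
  obtain ⟨x, hx, hx2, heq⟩ := exists_xb hA hB h0 h2
  set ζ : RR := C xs + x with hζ
  have hcζ : constantCoeff ζ ≠ 0 := by
    rw [hζ, map_add, J_one_iff.1 hx]; simpa using h0
  have hinv : ζ * ζ⁻¹ = 1 := MvPowerSeries.mul_inv_cancel ζ hcζ
  have hp : C ((xs + xs⁻¹) / 2) + X 1 = sN A ζ * ζ⁻¹ + sN B ζ * ζ := by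
    have h3 : (C ((xs + xs⁻¹) / 2) + X 1) * (ζ * ζ⁻¹) =
        sN A ζ * ζ⁻¹ + sN B ζ * (ζ * (ζ * ζ⁻¹)) := by
      rw [← mul_assoc, ← heq]; ring
    rw [hinv, mul_one, mul_one] at h3
    exact h3
  set a : Fin 2 → RR := ![X 0 * ζ ^ 2, sN A ζ * ζ + sN B ζ * ζ⁻¹ - C ((xs + xs⁻¹) / 2)] with ha
  have ha0 : a 0 = X 0 * ζ ^ 2 := rfl
  have ha1 : a 1 = sN A ζ * ζ + sN B ζ * ζ⁻¹ - C ((xs + xs⁻¹) / 2) := rfl
  have hdvd : (X 0 : RR) ∣ a 1 - X 1 := by
    have e : a 1 - X 1 = sN (A - B) ζ * (ζ - ζ⁻¹) := by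
      rw [sN_fsub, ha1]
      linear_combination -hp
    rw [e]
    exact Dvd.dvd.mul_right (sN_dvd (by simp [hA, hB]) ζ) _
  refine ⟨ζ, ζ⁻¹, a, hinv, ?_, ha0, ?_, hp, hdvd, ?_⟩
  · refine hasSubst_of fun i => ?_
    fin_cases i
    · show constantCoeff (a 0) = 0
      rw [ha0]; simp
    · show constantCoeff (a 1) = 0
      have : a 1 = (a 1 - X 1) + X 1 := by ring
      rw [this, map_add]
      have h1 := J_one_iff.1 ((J_of_dvd hdvd).mono (l := 1) (by omega))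
      have h3 : constantCoeff (X 1 : RR) = 0 := J_one_iff.1 J_X1
      rw [h1, h3, add_zero]
  · rw [ha1]; ring
  · have e1 : (C (xs ^ 2) : RR) = C xs ^ 2 := map_pow _ _ _
    have e2 : (C (xs ^ 2) : RR) * C (4 / (xs - xs⁻¹)) = 2 * C xs * C (2 * xs / (xs - xs⁻¹)) := by
      have : (2 : RR) = C 2 := by rw [map_ofNat]
      rw [this, ← map_mul, ← map_mul, ← map_mul]; congr 1; ring
    have e : a 0 - C (xs ^ 2) * X 0 * (1 + C (4 / (xs - xs⁻¹)) * X 1) =
        X 0 * (2 * C xs * (x - C (2 * xs / (xs - xs⁻¹)) * X 1) + x * x) := by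
      rw [ha0, hζ]
      linear_combination (-(X 0 * X 1)) * e2 - X 0 * e1
    rw [e]
    exact J_X0.mul ((hx2.mul_left _).add (hx.mul hx))

end

/-- substitutions with `a 0` of weight `≥ 2` and `a 1` of weight `≥ 1` preserve the filtration -/
lemma J_subst {a : Fin 2 → RR} (hs : HasSubst a) (ha0 : J 2 (a 0)) (ha1 : J 1 (a 1)) {k : ℕ}
    {f : RR} (hf : J k f) : J k (subst a f) := by
  intro e he
  rw [coeff_subst hs]
  refine finsum_eq_zero_of_forall_eq_zero fun d => ?_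
  by_cases hd : wt d < k
  · rw [hf d hd, zero_smul]
  · rw [prod_fin2]
    have := ((ha0.pow (d 0)).mul (ha1.pow (d 1)))
    rw [this e (by simp only [wt] at *; omega), smul_zero]

section

variable {a : Fin 2 → RR} {qs c1 : ℂ}

lemma pow_subst (hs : HasSubst a) (k : ℕ) (f : RR) :
    ((substAlgHom hs : RR →ₐ[ℂ] RR) ^ k) f =
      subst (fun i => ((substAlgHom hs : RR →ₐ[ℂ] RR) ^ k) (X i)) f ∧
    HasSubst (fun i => ((substAlgHom hs : RR →ₐ[ℂ] RR) ^ k) (X i : RR)) := by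
  induction k with
  | zero =>
    refine ⟨?_, ?_⟩
    · simp only [pow_zero, AlgHom.one_apply]
      have := congrFun (subst_self (σ := Fin 2) (R := ℂ)) f
      exact this.symm
    · simpa using HasSubst.X
  | succ k ih =>
    have h1 : ∀ g : RR, ((substAlgHom hs : RR →ₐ[ℂ] RR) ^ (k + 1)) g =
        subst a (((substAlgHom hs : RR →ₐ[ℂ] RR) ^ k) g) := by
      intro g
      rw [pow_succ', AlgHom.mul_apply, coe_substAlgHom]
    refine ⟨?_, ?_⟩
    · rw [h1, ih.1, subst_comp_subst_apply ih.2 hs]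
      congr 1
      funext i
      rw [h1]
    · have := HasSubst.comp ih.2 hs
      convert this using 1
      funext i
      rw [h1, coe_substAlgHom]

variable (hs : HasSubst a) (hN : (X 0 : RR) ∣ a 0) (hd : (X 0 : RR) ∣ a 1 - X 1)
  (hl : J 4 (a 0 - C qs * X 0 * (1 + C c1 * X 1)))

include hl in
lemma a0_J : J 2 (a 0) := by
  have : a 0 = (a 0 - C qs * X 0 * (1 + C c1 * X 1)) + C qs * X 0 * (1 + C c1 * X 1) := by ring
  rw [this]
  exact (hl.mono (by omega)).add ((J_X0.mul_left _).mul_right _)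

include hd in
lemma a1_J : J 1 (a 1) := by
  have : a 1 = (a 1 - X 1) + X 1 := by ring
  rw [this]
  exact ((J_of_dvd hd).mono (by omega)).add J_X1

include hN in
lemma dvd_T_pow (n : ℕ) {f : RR} (h : (X 0 : RR) ^ n ∣ f) :
    (X 0 : RR) ^ n ∣ (substAlgHom hs : RR →ₐ[ℂ] RR) f := by
  obtain ⟨g, rfl⟩ := h
  rw [map_mul, map_pow, substAlgHom_X]
  exact Dvd.dvd.mul_right (pow_dvd_pow_of_dvd hN n) _

include hN in
lemma dvd_T_pow_pow (n k : ℕ) {f : RR} (h : (X 0 : RR) ^ n ∣ f) :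
    (X 0 : RR) ^ n ∣ ((substAlgHom hs : RR →ₐ[ℂ] RR) ^ k) f := by
  induction k with
  | zero => simpa using h
  | succ k ih => rw [pow_succ', AlgHom.mul_apply]; exact dvd_T_pow hs hN n ih

include hN hd in
/-- `T^k δ ≡ δ` modulo `N` -/
lemma T_pow_delta (k : ℕ) :
    (X 0 : RR) ∣ ((substAlgHom hs : RR →ₐ[ℂ] RR) ^ k) (X 1) - X 1 := by
  induction k with
  | zero => simp
  | succ k ih =>
    rw [pow_succ', AlgHom.mul_apply]
    have h1 := dvd_T_pow hs hN 1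
      (f := ((substAlgHom hs : RR →ₐ[ℂ] RR) ^ k) (X 1) - X 1) (by rw [pow_one]; exact ih)
    rw [pow_one, map_sub, substAlgHom_X] at h1
    have h2 := dvd_add h1 hd
    rwa [sub_add_sub_cancel] at h2

include hd hl in
/-- leading part of `T^k N` -/
lemma T_pow_N (k : ℕ) :
    J 4 (((substAlgHom hs : RR →ₐ[ℂ] RR) ^ k) (X 0) - C (qs ^ k) * X 0 * (1 + C (k * c1) * X 1)) := by
  induction k with
  | zero => simpa using J.zero 4
  | succ k ih =>
    rw [pow_succ', AlgHom.mul_apply]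
    have h1 := J_subst hs (a0_J hl) (a1_J hd) ih
    rw [← coe_substAlgHom hs, map_sub, map_mul, map_mul, map_add, map_mul, substAlgHom_X,
      substAlgHom_X, map_one] at h1
    have hC : ∀ c : ℂ, (substAlgHom hs : RR →ₐ[ℂ] RR) (C c) = C c := fun c =>
      (substAlgHom hs : RR →ₐ[ℂ] RR).commutes c
    rw [hC, hC] at h1
    set U := ((substAlgHom hs : RR →ₐ[ℂ] RR)) (((substAlgHom hs : RR →ₐ[ℂ] RR) ^ k) (X 0)) with hU
    have e1 : (C (qs ^ (k + 1)) : RR) = C (qs ^ k) * C qs := by rw [pow_succ, map_mul]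
    have e2 : (C (((k + 1 : ℕ) : ℂ) * c1) : RR) = C (k * c1) + C c1 := by
      rw [← map_add]; congr 1; push_cast; ring
    have e : U - C (qs ^ (k + 1)) * X 0 * (1 + C (((k + 1 : ℕ) : ℂ) * c1) * X 1) =
        (U - C (qs ^ k) * a 0 * (1 + C (k * c1) * a 1)) +
        C (qs ^ k) * ((a 0 - C qs * X 0 * (1 + C c1 * X 1)) * (1 + C (k * c1) * a 1)) +
        C (qs ^ k) * C qs * ((1 + C c1 * X 1) * C (k * c1)) * (X 0 * (a 1 - X 1)) +
        C (qs ^ k) * C qs * (C c1 * C (k * c1)) * (X 0 * (X 1 * X 1)) := by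
      rw [e1, e2]; ring
    rw [e]
    refine ((h1.add ?_).add ?_).add ?_
    · exact (hl.mul_right _).mul_left _
    · exact (J_X0.mul (J_of_dvd hd)).mul_left _
    · exact (J_X0.mul (J_X1.mul J_X1)).mul_left _

include hN hd hl in
/-- the iterate `T^m` raises the weight when `q_*^m = 1` -/
theorem T_pow_unip {m : ℕ} (hm : qs ^ m = 1) (k : ℕ) (f : RR) (hf : J k f) :
    J (k + 1) (((substAlgHom hs : RR →ₐ[ℂ] RR) ^ m) f - f) := by
  have h1 := T_pow_N hs hd hl m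
  have h2 := T_pow_delta hs hN hd m
  rw [(pow_subst hs m f).1]
  refine J_subst_sub (a := fun i => ((substAlgHom hs : RR →ₐ[ℂ] RR) ^ m) (X i)) ?_ ?_ hf
  · show J 3 (((substAlgHom hs : RR →ₐ[ℂ] RR) ^ m) (X 0) - X 0)
    rw [hm, map_one] at h1
    have e : ((substAlgHom hs : RR →ₐ[ℂ] RR) ^ m) (X 0) - X 0 =
      (((substAlgHom hs : RR →ₐ[ℂ] RR) ^ m) (X 0) - 1 * X 0 * (1 + C (m * c1) * X 1)) +
        C (m * c1) * (X 0 * X 1) := by ring
    rw [e]
    exact (h1.mono (by omega)).add ((J_X0.mul J_X1).mul_left _)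
  · exact J_of_dvd h2

end

end Vale.Agent.P097.H490.D3
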