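import Mathlib

/-!
P097, disc case, block D3 (S2): the weighted filtration (`wt N = 2`, `wt δ = 1`) on
`ℂ[[N, δ]] = MvPowerSeries (Fin 2) ℂ`, a fixed point lemma and the effect of substitutions.
-/

namespace Vale.Agent.P097.H490.D3

open MvPowerSeries

/-- the regular ring `ℂ[[N, δ]]` -/
abbrev RR := MvPowerSeries (Fin 2) ℂ

/-- the weight of an exponent -/
def wt (d : Fin 2 →₀ ℕ) : ℕ := 2 * d 0 + d 1

lemma wt_add (d e : Fin 2 →₀ ℕ) : wt (d + e) = wt d + wt e := by
  simp [wt]; ring

/-- `J k f`: all the terms of `f` have weight at least `k` -/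
def J (k : ℕ) (f : RR) : Prop := ∀ d, wt d < k → coeff d f = 0

lemma J.zero (k : ℕ) : J k 0 := fun d _ => by simp

lemma J.zero' (f : RR) : J 0 f := fun d h => by omega

lemma J.add {k : ℕ} {f g : RR} (hf : J k f) (hg : J k g) : J k (f + g) := fun d h => by
  rw [map_add, hf d h, hg d h, add_zero]

lemma J.neg {k : ℕ} {f : RR} (hf : J k f) : J k (-f) := fun d h => by
  rw [map_neg, hf d h, neg_zero]

lemma J.sub {k : ℕ} {f g : RR} (hf : J k f) (hg : J k g) : J k (f - g) := by
  rw [sub_eq_add_neg]; exact hf.add hg.neg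

lemma J.mono {k l : ℕ} {f : RR} (hf : J k f) (h : l ≤ k) : J l f := fun d hd => hf d (by omega)

lemma J.mul {k l : ℕ} {f g : RR} (hf : J k f) (hg : J l g) : J (k + l) (f * g) := by
  classical
  intro d hd
  rw [coeff_mul]
  refine Finset.sum_eq_zero fun ij hij => ?_
  rw [Finset.HasAntidiagonal.mem_antidiagonal] at hij
  have := wt_add ij.1 ij.2
  rw [hij] at this
  by_cases h1 : wt ij.1 < k
  · rw [hf _ h1, zero_mul]
  · rw [hg _ (by omega), mul_zero]

lemma J.mul_left {k : ℕ} {f : RR} (g : RR) (hf : J k f) : J k (g * f) := by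
  have := (J.zero' g).mul hf
  simpa using this

lemma J.mul_right {k : ℕ} {f : RR} (g : RR) (hf : J k f) : J k (f * g) := by
  have := hf.mul (J.zero' g)
  simpa using this

lemma J.pow {k : ℕ} {f : RR} (hf : J k f) (n : ℕ) : J (n * k) (f ^ n) := by
  induction n with
  | zero => simpa using J.zero' _
  | succ n ih => rw [pow_succ, Nat.succ_mul]; exact ih.mul hf

lemma J.sum {ι : Type*} {k : ℕ} {s : Finset ι} {f : ι → RR} (h : ∀ i ∈ s, J k (f i)) :
    J k (∑ i ∈ s, f i) := by
  intro d hd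
  rw [map_sum]
  exact Finset.sum_eq_zero fun i hi => h i hi d hd

lemma J.eq_zero {f : RR} (h : ∀ k, J k f) : f = 0 := by
  ext d; simpa using h (wt d + 1) d (by omega)

lemma J.ext {f g : RR} (h : ∀ k, J k (f - g)) : f = g := sub_eq_zero.1 (J.eq_zero h)

lemma J_one_iff {f : RR} : J 1 f ↔ constantCoeff f = 0 := by
  constructor
  · intro h; simpa [wt] using h 0 (by simp [wt])
  · intro h d hd
    have h0 : d = 0 := by
      ext i; fin_cases i <;> simp [wt] at hd ⊢ <;> omega
    subst h0; simpa using h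

lemma J_X0 : J 2 (X 0 : RR) := by
  classical
  intro d hd
  rw [coeff_X, if_neg]
  rintro rfl
  simp [wt] at hd

lemma J_X1 : J 1 (X 1 : RR) := by
  classical
  intro d hd
  rw [coeff_X, if_neg]
  rintro rfl
  simp [wt] at hd

/-- **fixed point lemma** -/
theorem fixed_point (Φ : RR → RR) (h1 : ∀ x, J 1 x → J 1 (Φ x))
    (h2 : ∀ k x y, J 1 x → J 1 y → J k (x - y) → J (k + 1) (Φ x - Φ y)) :
    ∃ x, J 1 x ∧ Φ x = x := by
  have hs : ∀ k, J 1 (Φ^[k] 0) := by
    intro k
    induction k with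
    | zero => exact J.zero 1
    | succ k ih => rw [Function.iterate_succ_apply']; exact h1 _ ih
  have hd : ∀ k, J (k + 1) (Φ^[k + 1] 0 - Φ^[k] 0) := by
    intro k
    induction k with
    | zero => simpa using hs 1
    | succ k ih =>
      have h3 := h2 (k + 1) _ _ (hs (k + 1)) (hs k) ih
      rwa [← Function.iterate_succ_apply' Φ (k + 1) 0, ← Function.iterate_succ_apply' Φ k 0] at h3
  have hd2 : ∀ k j, J (k + 1) (Φ^[k + j] 0 - Φ^[k] 0) := by
    intro k j
    induction j with
    | zero => simpa using J.zero _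
    | succ j ih =>
      have := (hd (k + j)).mono (l := k + 1) (by omega)
      have h3 := this.add ih
      rw [sub_add_sub_cancel] at h3
      exact h3
  set x : RR := fun d => coeff d (Φ^[wt d] 0) with hx
  have hxk : ∀ k, J (k + 1) (x - Φ^[k] 0) := by
    intro k d hd'
    have e1 : coeff d x = coeff d (Φ^[wt d] 0) := rfl
    obtain ⟨j, rfl⟩ := Nat.exists_eq_add_of_le (show wt d ≤ k by omega)
    have := hd2 (wt d) j d (by omega)
    rw [map_sub, sub_eq_zero] at this
    rw [map_sub, e1, this, sub_self]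
  refine ⟨x, ?_, ?_⟩
  · have := (hxk 0).add (hs 0)
    simpa using this
  · refine J.ext fun k => ?_
    have hx1 : J 1 x := by
      have := (hxk 0).add (hs 0)
      simpa using this
    have a1 := h2 k x (Φ^[k] 0) hx1 (hs k) ((hxk k).mono (by omega))
    rw [← Function.iterate_succ_apply' Φ k 0] at a1
    have a2 := (hxk (k + 1)).mono (l := k + 1) (by omega)
    have := a1.sub a2
    refine (this.mono (by omega : k ≤ k + 1)).mono le_rfl |> fun h => ?_
    convert h using 1
    ring

/-- substitution of the variable of a power series -/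
lemma J_psubst_sub {k : ℕ} {a b : RR} (ha : constantCoeff a = 0) (hb : constantCoeff b = 0)
    (h : J k (a - b)) (f : PowerSeries ℂ) : J k (PowerSeries.subst a f - PowerSeries.subst b f) := by
  intro d hd
  rw [map_sub, PowerSeries.coeff_subst (PowerSeries.HasSubst.of_constantCoeff_zero ha),
    PowerSeries.coeff_subst (PowerSeries.HasSubst.of_constantCoeff_zero hb), sub_eq_zero]
  refine finsum_congr fun n => ?_
  congr 1
  rw [← sub_eq_zero, ← map_sub]
  have : J k (a ^ n - b ^ n) := by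
    obtain ⟨c, hc⟩ := sub_dvd_pow_sub_pow a b n
    rw [hc]; exact h.mul_right c
  exact this d hd

lemma J_psubst {k : ℕ} {a : RR} (ha : constantCoeff a = 0) (h : J k a) {f : PowerSeries ℂ}
    (hf : PowerSeries.constantCoeff f = 0) : J k (PowerSeries.subst a f) := by
  intro d hd
  rw [PowerSeries.coeff_subst (PowerSeries.HasSubst.of_constantCoeff_zero ha)]
  refine finsum_eq_zero_of_forall_eq_zero fun n => ?_
  rcases Nat.eq_zero_or_pos n with rfl | hn
  · simp [hf]
  · have : J k (a ^ n) := by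
      obtain ⟨m, rfl⟩ : ∃ m, n = m + 1 := ⟨n - 1, by omega⟩
      rw [pow_succ]; exact h.mul_left _
    rw [this d hd, smul_zero]

lemma hasSubst_of {a : Fin 2 → RR} (h : ∀ i, constantCoeff (a i) = 0) : HasSubst a :=
  hasSubst_of_constantCoeff_zero h

/-- products `a₀^{d₀} a₁^{d₁}` -/
lemma prod_fin2 (a : Fin 2 → RR) (d : Fin 2 →₀ ℕ) :
    (d.prod fun s e => (a s) ^ e) = a 0 ^ d 0 * a 1 ^ d 1 := by
  rw [Finsupp.prod_fintype _ _ (fun i => pow_zero _), Fin.prod_univ_two]

/-- the substitution `N ↦ a 0`, `δ ↦ a 1` with `a 0 - N` of weight `≥ 3`, `a 1 - δ` of weight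
`≥ 2` raises the weight of `subst a f - f` -/
theorem J_subst_sub {a : Fin 2 → RR} (h0 : J 3 (a 0 - X 0)) (h1 : J 2 (a 1 - X 1)) {k : ℕ}
    {f : RR} (hf : J k f) : J (k + 1) (subst a f - f) := by
  have ha0 : J 2 (a 0) := by
    have := (h0.mono (l := 2) (by omega)).add J_X0
    simpa using this
  have ha1 : J 1 (a 1) := by
    have := (h1.mono (l := 1) (by omega)).add J_X1
    simpa using this
  have hs : HasSubst a := hasSubst_of fun i => by
    fin_cases i
    · exact J_one_iff.1 (ha0.mono (by omega))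
    · exact J_one_iff.1 ha1
  -- powers
  have hp0 : ∀ n, J (2 * n + 1) (a 0 ^ n - X 0 ^ n) := by
    intro n
    induction n with
    | zero => simpa using J.zero _
    | succ n ih =>
      have : a 0 ^ (n + 1) - X 0 ^ (n + 1) =
          (a 0 ^ n - X 0 ^ n) * a 0 + X 0 ^ n * (a 0 - X 0) := by ring
      rw [this]
      refine ((ih.mul ha0).mono (by omega)).add ?_
      exact ((J_X0.pow n).mul h0).mono (by omega)
  have hp1 : ∀ n, J (n + 1) (a 1 ^ n - X 1 ^ n) := by
    intro n
    induction n with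
    | zero => simpa using J.zero _
    | succ n ih =>
      have : a 1 ^ (n + 1) - X 1 ^ (n + 1) =
          (a 1 ^ n - X 1 ^ n) * a 1 + X 1 ^ n * (a 1 - X 1) := by ring
      rw [this]
      refine ((ih.mul ha1).mono (by omega)).add ?_
      exact ((J_X1.pow n).mul h1).mono (by omega)
  have hpp : ∀ d : Fin 2 →₀ ℕ, J (wt d + 1) (a 0 ^ d 0 * a 1 ^ d 1 - X 0 ^ d 0 * X 1 ^ d 1) := by
    intro d
    have : a 0 ^ d 0 * a 1 ^ d 1 - X 0 ^ d 0 * X 1 ^ d 1 =
      (a 0 ^ d 0 - X 0 ^ d 0) * a 1 ^ d 1 + X 0 ^ d 0 * (a 1 ^ d 1 - X 1 ^ d 1) := by ring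
    rw [this]
    refine (((hp0 (d 0)).mul (ha1.pow (d 1))).mono ?_).add
      (((J_X0.pow (d 0)).mul (hp1 (d 1))).mono ?_) <;> simp only [wt] <;> omega
  intro e he
  rw [map_sub, sub_eq_zero, coeff_subst hs]
  have hid : coeff e f = finsum (fun d => coeff d f • (coeff e (d.prod fun s e => (X s : RR) ^ e))) := by
    rw [← coeff_subst (HasSubst.X) f e, subst_self]; rfl
  rw [hid]
  refine finsum_congr fun d => ?_
  by_cases hd : wt d < k
  · rw [hf d hd, zero_smul, zero_smul]
  · congr 1
    rw [prod_fin2, prod_fin2, ← sub_eq_zero, ← map_sub]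
    exact hpp d e (by omega)

end Vale.Agent.P097.H490.D3
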